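import Vale.Agent.P235.ST.H552.GlueSurf
import Vale.Agent.P235.H105.Hop

set_option linter.all false

/-! Plane graphs are closed under gluing along an edge. -/

namespace Vale.Agent.P235.ST.H552

open Set

theorem conn_glue {V : Type} {G : SimpleGraph V} {A B : Set V} {s : V}
    (hs : s ∈ A ∩ B) (hAB : A ∪ B = Set.univ)
    (hA : (G.induce A).Connected) (hB : (G.induce B).Connected) : G.Connected := by
  have key : ∀ u, G.Reachable u s := by
    intro u
    have : u ∈ A ∪ B := by rw [hAB]; trivial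
    rcases this with h | h
    · exact (hA.preconnected ⟨u, h⟩ ⟨s, hs.1⟩).map (SimpleGraph.Embedding.induce A).toHom
    · exact (hB.preconnected ⟨u, h⟩ ⟨s, hs.2⟩).map (SimpleGraph.Embedding.induce B).toHom
  rw [SimpleGraph.connected_iff]
  exact ⟨fun u v => (key u).trans (key v).symm, ⟨s⟩⟩

theorem plane_glue {V : Type} [Finite V] {G : SimpleGraph V} {A B : Set V} {s t : V}
    (hst : G.Adj s t) (hAB : A ∪ B = Set.univ) (hI : A ∩ B = {s, t})
    (hno : ∀ a b, a ∉ B → b ∉ A → ¬ G.Adj a b) (hc : G.Connected)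
    (hA : ∃ σA : Equiv.Perm (G.induce A).Dart, PlaneMap (G.induce A) σA)
    (hB : ∃ σB : Equiv.Perm (G.induce B).Dart, PlaneMap (G.induce B) σB) :
    ∃ σ : Equiv.Perm G.Dart, PlaneMap G σ := by
  obtain ⟨σA, hA⟩ := hA
  obtain ⟨σB, hB⟩ := hB
  obtain ⟨σ, h⟩ := surf_glue (gA := 0) (gB := 0) hst hAB hI hno
    ⟨hA.fst, hA.cyc, hA.euler.ge⟩ ⟨hB.fst, hB.cyc, hB.euler.ge⟩
  exact ⟨σ, SurfMap.plane hc h⟩

/-- connected plane graphs are closed under gluing along an edge -/
theorem planar_glue {V : Type} [Finite V] {G : SimpleGraph V} {A B : Set V} {s t : V}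
    (hst : G.Adj s t) (hAB : A ∪ B = Set.univ) (hI : A ∩ B = {s, t})
    (hno : ∀ a b, a ∉ B → b ∉ A → ¬ G.Adj a b)
    (hA : (G.induce A).Connected ∧ ∃ σA : Equiv.Perm (G.induce A).Dart,
      PlaneMap (G.induce A) σA)
    (hB : (G.induce B).Connected ∧ ∃ σB : Equiv.Perm (G.induce B).Dart,
      PlaneMap (G.induce B) σB) :
    G.Connected ∧ ∃ σ : Equiv.Perm G.Dart, PlaneMap G σ := by
  have hc : G.Connected := conn_glue (s := s) (by rw [hI]; exact Or.inl rfl) hAB hA.1 hB.1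
  exact ⟨hc, plane_glue hst hAB hI hno hc hA.2 hB.2⟩

end Vale.Agent.P235.ST.H552
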