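import Vale.Agent.P235.H206.SurfDefs
import Vale.Agent.P235.H105.Induced

set_option linter.all false

/-! Gluing two maps on surfaces along an edge: the genera add up. -/

namespace Vale.Agent.P235.ST.H552

open Set

/-- the part of a permutation on an invariant set -/
def part {D : Type} (b : Equiv.Perm D) (q : D → Prop) [DecidablePred q]
    (hq : ∀ d, q (b d) ↔ q d) : Equiv.Perm D where
  toFun d := if q d then b d else d
  invFun d := if q d then b.symm d else d
  left_inv d := by
    by_cases h : q d
    · simp only [if_pos h, if_pos ((hq d).2 h), Equiv.symm_apply_apply]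
    · simp only [if_neg h]
  right_inv d := by
    by_cases h : q d
    · have h' : q (b.symm d) := by
        rw [← hq, Equiv.apply_symm_apply]; exact h
      simp only [if_pos h, if_pos h', Equiv.apply_symm_apply]
    · simp only [if_neg h]

theorem part_pos {D : Type} {b : Equiv.Perm D} {q : D → Prop} [DecidablePred q]
    {hq : ∀ d, q (b d) ↔ q d} {d : D} (h : q d) : part b q hq d = b d := if_pos h

theorem part_neg {D : Type} {b : Equiv.Perm D} {q : D → Prop} [DecidablePred q]
    {hq : ∀ d, q (b d) ↔ q d} {d : D} (h : ¬ q d) : part b q hq d = d := if_neg h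

/-- constant on cycles -/
theorem const_cycle {α β : Type} {f : Equiv.Perm α} {c : α → β} (h : ∀ x, c (f x) = c x)
    {x y : α} (hxy : f.SameCycle x y) : c x = c y := by
  have hs : ∀ (n : ℤ) (d : α), c ((f ^ n) d) = c d := by
    intro n
    induction n using Int.induction_on with
    | zero => intro d; rfl
    | succ n ih =>
      intro d
      rw [zpow_add_one, Equiv.Perm.mul_apply, ih, h]
    | pred n ih =>
      intro d
      have h3 := h (f⁻¹ d)
      rw [show f (f⁻¹ d) = d from Equiv.apply_symm_apply _ _] at h3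
      rw [zpow_sub_one, Equiv.Perm.mul_apply, ih, ← h3]
  obtain ⟨n, hn⟩ := hxy
  rw [← hn, hs]

/-- relations containing all steps contain all cycles -/
theorem rel_cycle {α : Type} {f : Equiv.Perm α} {S : α → α → Prop} (hr : ∀ x, S x x)
    (hs : ∀ x y, S x y → S y x) (ht : ∀ x y z, S x y → S y z → S x z) (h : ∀ x, S x (f x))
    {x y : α} (hxy : f.SameCycle x y) : S x y := by
  have hn : ∀ (n : ℤ) (d : α), S d ((f ^ n) d) := by
    intro n
    induction n using Int.induction_on with
    | zero => intro d; exact hr d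
    | succ n ih =>
      intro d
      rw [zpow_add_one, Equiv.Perm.mul_apply]
      exact ht _ _ _ (h d) (ih _)
    | pred n ih =>
      intro d
      have h3 := h (f⁻¹ d)
      rw [show f (f⁻¹ d) = d from Equiv.apply_symm_apply _ _] at h3
      rw [zpow_sub_one, Equiv.Perm.mul_apply]
      exact ht _ _ _ (hs _ _ h3) (ih _)
  obtain ⟨n, rfl⟩ := hxy
  exact hn n x

/-- in a finite cycle one link may be left out -/
theorem skip_link {α : Type} [Finite α] {f : Equiv.Perm α} {S : α → α → Prop} (hr : ∀ x, S x x)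
    (hs : ∀ x y, S x y → S y x) (ht : ∀ x y z, S x y → S y z → S x z) {z0 : α}
    (h : ∀ z, f.SameCycle z0 z → z ≠ z0 → S z (f z)) : S z0 (f z0) := by
  by_contra hn
  set T : Set α := {z | f.SameCycle z0 z ∧ S (f z0) z} with hT
  have h0 : z0 ∉ T := fun h' => hn (hs _ _ h'.2)
  have h1 : Set.MapsTo f T T := by
    rintro z ⟨hz1, hz2⟩
    have hz0 : z ≠ z0 := fun e => h0 (e ▸ ⟨hz1, hz2⟩)
    exact ⟨hz1.apply_right, ht _ _ _ hz2 (h z hz1 hz0)⟩
  have h3 : f z0 ∈ T := ⟨(Equiv.Perm.SameCycle.refl f z0).apply_right, hr _⟩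
  have h2 : Function.Surjective (h1.restrict f T T) :=
    Finite.surjective_of_injective fun u v h => Subtype.ext (f.injective (congrArg Subtype.val h))
  obtain ⟨⟨z, hz⟩, h4⟩ := h2 ⟨f z0, h3⟩
  have h5 : f z = f z0 := congrArg Subtype.val h4
  exact h0 (f.injective h5 ▸ hz)

theorem surf_glue {V : Type} [Finite V] {G : SimpleGraph V} {A B : Set V} {s t : V}
    (hst : G.Adj s t) (hAB : A ∪ B = Set.univ) (hI : A ∩ B = {s, t})
    (hno : ∀ a b, a ∉ B → b ∉ A → ¬ G.Adj a b) {gA gB : ℕ}
    {σA : Equiv.Perm (G.induce A).Dart} {σB : Equiv.Perm (G.induce B).Dart}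
    (hA : SurfMap gA (G.induce A) σA) (hB : SurfMap gB (G.induce B) σB) :
    ∃ σ : Equiv.Perm G.Dart, SurfMap (gA + gB) G σ := by
  classical
  have hts : t ≠ s := hst.ne'
  have hsI : s ∈ A ∩ B := by rw [hI]; exact Or.inl rfl
  have htI : t ∈ A ∩ B := by rw [hI]; exact Or.inr rfl
  have hmem : ∀ u, u ∈ A ∨ u ∈ B := by
    intro u
    have : u ∈ A ∪ B := by rw [hAB]; trivial
    exact this
  have hbo : ∀ u, u ∈ A → u ∈ B → u = s ∨ u = t := by
    intro u h1 h2
    have : u ∈ A ∩ B := ⟨h1, h2⟩
    rw [hI] at this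
    exact this
  set pA : G.Dart → Prop := fun d => d.fst ∈ A ∧ d.snd ∈ A with hpA
  set pB : G.Dart → Prop := fun d => d.fst ∈ B ∧ d.snd ∈ B with hpB
  have hcov : ∀ d, pA d ∨ pB d := by
    intro d
    by_cases h1 : pA d
    · exact Or.inl h1
    right
    by_contra h2
    have h3 : d.fst ∉ A ∨ d.snd ∉ A := by
      by_contra h; push Not at h; exact h1 h
    have h4 : d.fst ∉ B ∨ d.snd ∉ B := by
      by_contra h; push Not at h; exact h2 h
    rcases h3 with h3 | h3 <;> rcases h4 with h4 | h4
    · exact (hmem _).elim h3 h4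
    · exact hno _ _ h4 h3 d.adj.symm
    · exact hno _ _ h4 h3 d.adj
    · exact (hmem _).elim h3 h4
  let iA : (G.induce A).Dart → G.Dart := fun d => ⟨((d.fst : V), (d.snd : V)), d.adj⟩
  let iB : (G.induce B).Dart → G.Dart := fun d => ⟨((d.fst : V), (d.snd : V)), d.adj⟩
  let fA : (G.induce A).Dart ≃ {d : G.Dart // pA d} :=
    { toFun := fun d => ⟨iA d, d.fst.2, d.snd.2⟩
      invFun := fun d => ⟨(⟨d.1.fst, d.2.1⟩, ⟨d.1.snd, d.2.2⟩), d.1.adj⟩
      left_inv := fun d => rfl
      right_inv := fun d => rfl }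
  let fB : (G.induce B).Dart ≃ {d : G.Dart // pB d} :=
    { toFun := fun d => ⟨iB d, d.fst.2, d.snd.2⟩
      invFun := fun d => ⟨(⟨d.1.fst, d.2.1⟩, ⟨d.1.snd, d.2.2⟩), d.1.adj⟩
      left_inv := fun d => rfl
      right_inv := fun d => rfl }
  have iAp : ∀ d, pA (iA d) := fun d => (fA d).2
  have iBp : ∀ d, pB (iB d) := fun d => (fB d).2
  have iAe : ∀ d, pA d → ∃ e, iA e = d := fun d h =>
    ⟨fA.symm ⟨d, h⟩, congrArg Subtype.val (fA.apply_symm_apply ⟨d, h⟩)⟩
  have iBe : ∀ d, pB d → ∃ e, iB e = d := fun d h =>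
    ⟨fB.symm ⟨d, h⟩, congrArg Subtype.val (fB.apply_symm_apply ⟨d, h⟩)⟩
  have iAi : Function.Injective iA := fun d e h => fA.injective (Subtype.ext h)
  have iBi : Function.Injective iB := fun d e h => fB.injective (Subtype.ext h)
  have iAf : ∀ d, (iA d).fst = (d.fst : V) := fun d => rfl
  have iBf : ∀ d, (iB d).fst = (d.fst : V) := fun d => rfl
  have iAs : ∀ d, (iA d).symm = iA d.symm := fun d => rfl
  have iBs : ∀ d, (iB d).symm = iB d.symm := fun d => rfl
  set a : Equiv.Perm G.Dart := σA.extendDomain fA with ha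
  set b : Equiv.Perm G.Dart := σB.extendDomain fB with hb
  have a1 : ∀ d, a (iA d) = iA (σA d) := fun d => σA.extendDomain_apply_image fA d
  have b1 : ∀ d, b (iB d) = iB (σB d) := fun d => σB.extendDomain_apply_image fB d
  have a2 : ∀ d, ¬ pA d → a d = d := fun d h => σA.extendDomain_apply_not_subtype fA h
  have b2 : ∀ d, ¬ pB d → b d = d := fun d h => σB.extendDomain_apply_not_subtype fB h
  clear_value a b
  let x : G.Dart := ⟨(s, t), hst⟩
  let xA : (G.induce A).Dart := ⟨(⟨s, hsI.1⟩, ⟨t, htI.1⟩), hst⟩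
  let xB : (G.induce B).Dart := ⟨(⟨s, hsI.2⟩, ⟨t, htI.2⟩), hst⟩
  have xA1 : iA xA = x := rfl
  have xB1 : iB xB = x := rfl
  have xA2 : iA xA.symm = x.symm := rfl
  have xB2 : iB xB.symm = x.symm := rfl
  have hboth : ∀ d, pA d → pB d → d = x ∨ d = x.symm := by
    intro d h1 h2
    have h3 := hbo _ h1.1 h2.1
    have h4 := hbo _ h1.2 h2.2
    have h5 : d.fst ≠ d.snd := d.adj.ne
    rcases h3 with h3 | h3 <;> rcases h4 with h4 | h4
    · exact absurd (h3.trans h4.symm) h5
    · exact Or.inl (SimpleGraph.Dart.ext _ _ (Prod.ext h3 h4))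
    · exact Or.inr (SimpleGraph.Dart.ext _ _ (Prod.ext h3 h4))
    · exact absurd (h3.trans h4.symm) h5
  have af : ∀ d, (a d).fst = d.fst := by
    intro d
    by_cases h : pA d
    · obtain ⟨e, rfl⟩ := iAe d h
      rw [a1, iAf, iAf, hA.fst]
    · rw [a2 d h]
  have bf : ∀ d, (b d).fst = d.fst := by
    intro d
    by_cases h : pB d
    · obtain ⟨e, rfl⟩ := iBe d h
      rw [b1, iBf, iBf, hB.fst]
    · rw [b2 d h]
  set bs : Equiv.Perm G.Dart := part b (fun d => d.fst = s) (fun d => by rw [bf]) with hbs
  set bn : Equiv.Perm G.Dart := part b (fun d => ¬ d.fst = s) (fun d => by rw [bf]) with hbn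
  have s1 : ∀ d : G.Dart, d.fst = s → bs d = b d := fun d h => part_pos h
  have s2 : ∀ d : G.Dart, ¬ d.fst = s → bs d = d := fun d h => part_neg h
  have n1 : ∀ d : G.Dart, ¬ d.fst = s → bn d = b d := fun d h => part_pos h
  have n2 : ∀ d : G.Dart, d.fst = s → bn d = d := fun d h => part_neg (fun h' => h' h)
  clear_value bs bn
  set σ : Equiv.Perm G.Dart := bs * a * bn with hσ
  have σe : ∀ d, σ d = bs (a (bn d)) := fun d => rfl
  clear_value σ
  have xs : x.symm.fst = t := rfl
  have xf : x.fst = s := rfl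
  have hfin : Finite G.Dart := finite_dart
  have hfinA : Finite (G.induce A).Dart := finite_dart
  have hfinB : Finite (G.induce B).Dart := finite_dart
  -- darts with both
  have nB : ∀ d : (G.induce A).Dart, d ≠ xA → d ≠ xA.symm → ¬ pB (iA d) := by
    intro d h1 h2 h3
    rcases hboth _ (iAp d) h3 with h | h
    · exact h1 (iAi h)
    · exact h2 (iAi h)
  have nA : ∀ d : (G.induce B).Dart, d ≠ xB → d ≠ xB.symm → ¬ pA (iB d) := by
    intro d h1 h2 h3
    rcases hboth _ h3 (iBp d) with h | h
    · exact h1 (iBi h)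
    · exact h2 (iBi h)
  have neS : ∀ {C : Set V} {d e : (G.induce C).Dart}, (d.fst : V) ≠ (e.fst : V) → d ≠ e := by
    intro C d e h h'
    exact h (by rw [h'])
  refine ⟨σ, ⟨?_, ?_, ?_⟩⟩
  · intro d
    rw [σe]
    have e1 : (bn d).fst = d.fst := by
      by_cases h : d.fst = s
      · rw [n2 _ h]
      · rw [n1 _ h, bf]
    have e2 : ∀ d, (bs d).fst = d.fst := by
      intro d
      by_cases h : d.fst = s
      · rw [s1 _ h, bf]
      · rw [s2 _ h]
    rw [e2, af, e1]
  · -- cyclic
    set S : G.Dart → G.Dart → Prop := fun z z' => σ.SameCycle z z' with hS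
    have step : ∀ z, S z (σ z) := fun z => ⟨1, by rw [zpow_one]⟩
    have Ss : ∀ z z', S z z' → S z' z := fun z z' h => h.symm
    have St : ∀ z z' z'', S z z' → S z' z'' → S z z'' := fun z z' z'' h h' => h.trans h'
    have Sr : ∀ z, S z z := fun z => Equiv.Perm.SameCycle.refl _ _
    have cA : ∀ {d d' : (G.induce A).Dart}, σA.SameCycle d d' → (d.fst : V) = (d'.fst : V) :=
      fun h => const_cycle (c := fun d : (G.induce A).Dart => (d.fst : V))
        (fun d => by rw [hA.fst]) h
    have cB : ∀ {d d' : (G.induce B).Dart}, σB.SameCycle d d' → (d.fst : V) = (d'.fst : V) :=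
      fun h => const_cycle (c := fun d : (G.induce B).Dart => (d.fst : V))
        (fun d => by rw [hB.fst]) h
    -- direct steps
    have dA1 : ∀ d : (G.induce A).Dart, (d.fst : V) = s → σA d ≠ xA → S (iA d) (iA (σA d)) := by
      intro d h1 h2
      have h3 : ((σA d).fst : V) = s := by rw [hA.fst]; exact h1
      have h4 : ¬ pB (iA (σA d)) := nB _ h2 (neS (by rw [h3]; exact hts.symm))
      have h5 : σ (iA d) = iA (σA d) := by
        rw [σe, n2 _ h1, a1, s1 _ h3, b2 _ h4]
      exact h5 ▸ step (iA d)
    have dA2 : ∀ d : (G.induce A).Dart, (d.fst : V) ≠ s → d ≠ xA.symm →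
        S (iA d) (iA (σA d)) := by
      intro d h1 h2
      have h3 : ((σA d).fst : V) ≠ s := by rw [hA.fst]; exact h1
      have h4 : ¬ pB (iA d) := nB _ (neS h1) h2
      have h5 : σ (iA d) = iA (σA d) := by
        rw [σe, n1 _ h1, b2 _ h4, a1, s2 _ h3]
      exact h5 ▸ step (iA d)
    have dB1 : ∀ d : (G.induce B).Dart, (d.fst : V) = s → d ≠ xB → S (iB d) (iB (σB d)) := by
      intro d h1 h2
      have h4 : ¬ pA (iB d) := nA _ h2 (neS (by rw [h1]; exact hts.symm))
      have h5 : σ (iB d) = iB (σB d) := by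
        rw [σe, n2 _ h1, a2 _ h4, s1 _ h1, b1]
      exact h5 ▸ step (iB d)
    have dB2 : ∀ d : (G.induce B).Dart, (d.fst : V) ≠ s → σB d ≠ xB.symm →
        S (iB d) (iB (σB d)) := by
      intro d h1 h2
      have h3 : ((σB d).fst : V) ≠ s := by rw [hB.fst]; exact h1
      have h4 : ¬ pA (iB (σB d)) := nA _ (neS h3) h2
      have h5 : σ (iB d) = iB (σB d) := by
        rw [σe, n1 _ h1, b1, a2 _ h4, s2 _ h3]
      exact h5 ▸ step (iB d)
    have hSA : ∀ d, S (iA d) (iA (σA d)) := by
      intro d
      by_cases h1 : (d.fst : V) = s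
      · by_cases h2 : σA d = xA
        · refine skip_link (f := σA) (S := fun d d' => S (iA d) (iA d')) (fun _ => Sr _)
            (fun _ _ => Ss _ _) (fun _ _ _ => St _ _ _) ?_
          intro z hz hzd
          refine dA1 z ((cA hz).symm.trans h1) fun h3 => hzd ?_
          exact σA.injective (h3.trans h2.symm)
        · exact dA1 d h1 h2
      · by_cases h2 : d = xA.symm
        · refine skip_link (f := σA) (S := fun d d' => S (iA d) (iA d')) (fun _ => Sr _)
            (fun _ _ => Ss _ _) (fun _ _ _ => St _ _ _) ?_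
          intro z hz hzd
          refine dA2 z (fun h3 => h1 ((cA hz).trans h3)) fun h3 => hzd (h3.trans h2.symm)
        · exact dA2 d h1 h2
    have hSB : ∀ d, S (iB d) (iB (σB d)) := by
      intro d
      by_cases h1 : (d.fst : V) = s
      · by_cases h2 : d = xB
        · refine skip_link (f := σB) (S := fun d d' => S (iB d) (iB d')) (fun _ => Sr _)
            (fun _ _ => Ss _ _) (fun _ _ _ => St _ _ _) ?_
          intro z hz hzd
          exact dB1 z ((cB hz).symm.trans h1) fun h3 => hzd (h3.trans h2.symm)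
        · exact dB1 d h1 h2
      · by_cases h2 : σB d = xB.symm
        · refine skip_link (f := σB) (S := fun d d' => S (iB d) (iB d')) (fun _ => Sr _)
            (fun _ _ => Ss _ _) (fun _ _ _ => St _ _ _) ?_
          intro z hz hzd
          refine dB2 z (fun h3 => h1 ((cB hz).trans h3)) fun h3 => hzd ?_
          exact σB.injective (h3.trans h2.symm)
        · exact dB2 d h1 h2
    have hcA : ∀ {d d' : (G.induce A).Dart}, σA.SameCycle d d' → S (iA d) (iA d') :=
      fun h => rel_cycle (S := fun d d' => S (iA d) (iA d')) (fun _ => Sr _)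
        (fun _ _ => Ss _ _) (fun _ _ _ => St _ _ _) hSA h
    have hcB : ∀ {d d' : (G.induce B).Dart}, σB.SameCycle d d' → S (iB d) (iB d') :=
      fun h => rel_cycle (S := fun d d' => S (iB d) (iB d')) (fun _ => Sr _)
        (fun _ _ => Ss _ _) (fun _ _ _ => St _ _ _) hSB h
    have kAB : ∀ (d : (G.induce A).Dart) (d' : (G.induce B).Dart),
        (d.fst : V) = (d'.fst : V) → S (iA d) (iB d') := by
      intro d d' h
      have h1 : (d.fst : V) = s ∨ (d.fst : V) = t :=
        hbo _ d.fst.2 (by rw [h]; exact d'.fst.2)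
      rcases h1 with h1 | h1
      · refine St _ _ _ (hcA (hA.cyc d xA (Subtype.ext h1))) ?_
        exact hcB (hB.cyc xB d' (Subtype.ext (h1.symm.trans h)))
      · refine St _ _ _ (hcA (hA.cyc d xA.symm (Subtype.ext h1))) ?_
        exact hcB (hB.cyc xB.symm d' (Subtype.ext (h1.symm.trans h)))
    intro d d' h
    rcases hcov d with h1 | h1 <;> rcases hcov d' with h2 | h2
    · obtain ⟨e, rfl⟩ := iAe _ h1
      obtain ⟨e', rfl⟩ := iAe _ h2
      exact hcA (hA.cyc e e' (Subtype.ext h))
    · obtain ⟨e, rfl⟩ := iAe _ h1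
      obtain ⟨e', rfl⟩ := iBe _ h2
      exact kAB _ _ h
    · obtain ⟨e, rfl⟩ := iBe _ h1
      obtain ⟨e', rfl⟩ := iAe _ h2
      exact Ss _ _ (kAB _ _ h.symm)
    · obtain ⟨e, rfl⟩ := iBe _ h1
      obtain ⟨e', rfl⟩ := iBe _ h2
      exact hcB (hB.cyc e e' (Subtype.ext h))
  · -- Euler
    set FA := Quotient (Equiv.Perm.SameCycle.setoid (faceNext σA)) with hFA
    set FB := Quotient (Equiv.Perm.SameCycle.setoid (faceNext σB)) with hFB
    let mA : (G.induce A).Dart → FA := fun d => Quotient.mk _ d
    let mB : (G.induce B).Dart → FB := fun d => Quotient.mk _ d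
    have mA1 : ∀ d, mA (σA d.symm) = mA d := fun d => Quotient.sound ⟨-1, by
      show ((faceNext σA) ^ (-1 : ℤ)) (faceNext σA d) = d
      simp⟩
    have mB1 : ∀ d, mB (σB d.symm) = mB d := fun d => Quotient.sound ⟨-1, by
      show ((faceNext σB) ^ (-1 : ℤ)) (faceNext σB d) = d
      simp⟩
    have mA2 : ∀ f : FA, ∃ d, mA d = f := fun f => Quotient.exists_rep f
    have mB2 : ∀ f : FB, ∃ d, mB d = f := fun f => Quotient.exists_rep f
    let g2 : FB := mB xB.symm
    let T := FA ⊕ {g : FB // g ≠ g2}
    let cB : FB → T := fun g => if h : g = g2 then .inl (mA xA) else .inr ⟨g, h⟩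
    have cB1 : cB g2 = .inl (mA xA) := dif_pos rfl
    let c : G.Dart → T := fun d => if h : pA d ∧ d ≠ x then .inl (mA (fA.symm ⟨d, h.1⟩)) else
      if h : pB d then cB (mB (fB.symm ⟨d, h⟩)) else .inl (mA xA)
    have c1 : ∀ d : (G.induce A).Dart, d ≠ xA → c (iA d) = .inl (mA d) := by
      intro d hd
      have h : pA (iA d) ∧ iA d ≠ x := ⟨iAp d, fun h => hd (iAi h)⟩
      show (if h : pA (iA d) ∧ iA d ≠ x then (Sum.inl (mA (fA.symm ⟨iA d, h.1⟩)) : T) else _) = _
      rw [dif_pos h]
      rfl
    have c2 : ∀ d : (G.induce B).Dart, d ≠ xB.symm → c (iB d) = cB (mB d) := by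
      intro d hd
      have h : ¬ (pA (iB d) ∧ iB d ≠ x) := by
        rintro ⟨h1, h2⟩
        rcases hboth _ h1 (iBp d) with h | h
        · exact h2 h
        · exact hd (iBi h)
      show (if h : pA (iB d) ∧ iB d ≠ x then (Sum.inl (mA (fA.symm ⟨iB d, h.1⟩)) : T) else _) = _
      rw [dif_neg h, dif_pos (iBp d)]
      rfl
    have hxx : xB ≠ xB.symm := neS (d := xB) (e := xB.symm) hts.symm
    have hxxA : xA.symm ≠ xA := neS (d := xA.symm) (e := xA) hts
    have c3 : c x = cB (mB xB) := c2 xB hxx
    -- L1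
    have L1 : ∀ e : (G.induce A).Dart, c (bs (iA e)) = .inl (mA e) := by
      intro e
      by_cases h : e = xA
      · rw [h, xA1, s1 x xf, ← xB1, b1, c2]
        · have : mB (σB xB) = g2 := by
            have := mB1 xB.symm
            rwa [SimpleGraph.Dart.symm_symm] at this
          rw [this, cB1]
        · exact neS (by rw [hB.fst]; exact hts.symm)
      · have h1 : bs (iA e) = iA e := by
          by_cases h2 : (e.fst : V) = s
          · have h3 : ¬ pB (iA e) := nB _ h (neS (by rw [h2]; exact hts.symm))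
            rw [s1 _ h2, b2 _ h3]
          · exact s2 _ h2
        rw [h1, c1 e h]
    have L2 : ∀ w : (G.induce B).Dart, (w.fst : V) ≠ s → c (bs (a (iB w))) = cB (mB w) := by
      intro w hw
      by_cases h : w = xB.symm
      · rw [h, xB2, ← xA2, a1, L1]
        have : mA (σA xA.symm) = mA xA := mA1 xA
        rw [this]
        exact cB1.symm
      · have h1 : ¬ pA (iB w) := nA _ (neS hw) h
        rw [a2 _ h1, s2 _ hw, c2 w h]
    have hinv : ∀ d, c (σ d.symm) = c d := by
      intro d
      rw [σe]
      by_cases hd : d = x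
      · rw [hd, n1 _ (by rw [xs]; exact hts), ← xB2, b1, L2, c3]
        · exact congrArg _ (mB1 xB)
        · rw [hB.fst]; exact hts
      by_cases h : pA d
      · obtain ⟨e, rfl⟩ := iAe d h
        have he : e ≠ xA := fun h' => hd (by rw [h'])
        have h1 : bn (iA e).symm = (iA e).symm := by
          by_cases h2 : ((iA e).symm).fst = s
          · exact n2 _ h2
          · rw [n1 _ h2]
            refine b2 _ ?_
            intro h3
            rcases hboth _ (iAp e.symm) h3 with h4 | h4
            · exact h2 (by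
                show (iA e.symm).fst = s
                rw [h4])
            · apply he
              have : e.symm = xA.symm := iAi h4
              have := congrArg SimpleGraph.Dart.symm this
              simpa using this
        rw [h1, iAs, a1, L1, mA1, c1 e he]
      · have hB' := (hcov d).resolve_left h
        obtain ⟨e, rfl⟩ := iBe d hB'
        have he : e ≠ xB.symm := fun h' => h (by rw [h']; exact iAp xA.symm)
        have hs : ¬ pA (iB e.symm) := by
          intro h'
          exact h ⟨h'.2, h'.1⟩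
        rw [iBs]
        by_cases h1 : (iB e.symm).fst = s
        · rw [n2 _ h1, a2 _ hs, s1 _ h1, b1, c2 _ (neS (by
            rw [hB.fst]
            show (iB e.symm).fst ≠ t
            rw [h1]; exact hts.symm)), mB1, c2 e he]
        · rw [n1 _ h1, b1, L2 _ (by rw [hB.fst]; exact h1), mB1, c2 e he]
    have hsurj : Function.Surjective c := by
      rintro (f | ⟨g, hg⟩)
      · obtain ⟨e, rfl⟩ := mA2 f
        exact ⟨_, L1 e⟩
      · obtain ⟨e, rfl⟩ := mB2 g
        have he : e ≠ xB.symm := fun h' => hg (by rw [h'])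
        refine ⟨iB e, ?_⟩
        rw [c2 e he]
        exact dif_neg hg
    set F' := Quotient (Equiv.Perm.SameCycle.setoid (faceNext σ)) with hF'
    let C : F' → T := Quotient.lift c fun d d' h => const_cycle (c := c) hinv h
    have hC : Function.Surjective C := by
      intro f
      obtain ⟨z, hz⟩ := hsurj f
      exact ⟨Quotient.mk _ z, hz⟩
    have hFF : Nat.card FA + Nat.card FB ≤ Nat.card F' + 1 := by
      have h1 := Nat.card_le_card_of_surjective C hC
      rw [Nat.card_sum] at h1
      have h2 : Nat.card {g : FB // g ≠ g2} + 1 = Nat.card FB := by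
        have := Fintype.ofFinite FB
        rw [Nat.card_eq_fintype_card, Nat.card_eq_fintype_card, Fintype.card_subtype_compl,
          Fintype.card_subtype_eq]
        have : 0 < Fintype.card FB := Fintype.card_pos_iff.2 ⟨g2⟩
        omega
      omega
    have hV : Nat.card A + Nat.card B = Nat.card V + 2 := by
      have h1 := Set.ncard_union_add_ncard_inter A B
      rw [hAB, hI, Set.ncard_univ, Set.ncard_pair hts.symm] at h1
      exact h1.symm
    have hE : Nat.card (G.induce A).edgeSet + Nat.card (G.induce B).edgeSet =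
        Nat.card G.edgeSet + 1 := by
      have := Fintype.ofFinite V
      have : Fintype G.Dart := Fintype.ofFinite _
      have : Fintype (G.induce A).Dart := Fintype.ofFinite _
      have : Fintype (G.induce B).Dart := Fintype.ofFinite _
      have key : ∀ {W : Type} [Finite W] (H : SimpleGraph W), Nat.card H.Dart =
          2 * Nat.card H.edgeSet := by
        intro W _ H
        have := Fintype.ofFinite W
        have h1 := SimpleGraph.dart_card_eq_twice_card_edges H
        rw [Nat.card_eq_fintype_card, Nat.card_eq_fintype_card, ← SimpleGraph.edgeFinset_card]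
        convert h1
      have h1 := key (G.induce A)
      have h2 := key (G.induce B)
      have h3 := key G
      have h4 : Nat.card (G.induce A).Dart = {d : G.Dart | pA d}.ncard := Nat.card_congr fA
      have h5 : Nat.card (G.induce B).Dart = {d : G.Dart | pB d}.ncard := Nat.card_congr fB
      have h6 := Set.ncard_union_add_ncard_inter {d : G.Dart | pA d} {d : G.Dart | pB d}
      have h7 : {d : G.Dart | pA d} ∪ {d : G.Dart | pB d} = Set.univ := by
        ext d
        simpa using hcov d
      have h8 : {d : G.Dart | pA d} ∩ {d : G.Dart | pB d} = {x, x.symm} := by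
        ext d
        constructor
        · rintro ⟨h1, h2⟩
          exact hboth d h1 h2
        · rintro (h | h)
          · rw [h]; exact ⟨iAp xA, iBp xB⟩
          · rw [h]; exact ⟨iAp xA.symm, iBp xB.symm⟩
      have h9 : x ≠ x.symm := by
        intro h
        have := congrArg (fun d : G.Dart => d.fst) h
        exact hts this.symm
      rw [h7, h8, Set.ncard_univ, Set.ncard_pair h9, ← h4, ← h5] at h6
      omega
    have e1 := hA.euler
    have e2 := hB.euler
    show Nat.card G.edgeSet + 2 ≤ Nat.card V + Nat.card F' + (gA + gB)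
    have e1' : Nat.card (G.induce A).edgeSet + 2 ≤ Nat.card A + Nat.card FA + gA := e1
    have e2' : Nat.card (G.induce B).edgeSet + 2 ≤ Nat.card B + Nat.card FB + gB := e2
    omega

end Vale.Agent.P235.ST.H552
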